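import Crest.Agent.N222.F.Coord
import Crest.Agent.N346.Id.Conf
import Crest.Agent.N222.F.Graph
import Crest.Agent.N222.A.Gen
import Crest.Agent.N222.A.Id

-- ▼ part N228/Cf/Rel
section

/-!
# Row 228, conformal toolbox (helper28): the conformal law on immersed manifolds

`CfRel M M' ψ` : same atlas, `g' = e^{2ψ} g`.  `trb M M' b` : the one-form `b` as a field of `M'`.
`cfb M M' ψ k b = b + k dψ`.  `CfRel.Eb_eq` : the law for `E = R - 2 div b - |b|²`.
-/

set_option autoImplicit false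
set_option linter.unusedSectionVars false
open Set Filter Topology Function
open scoped ContDiff InnerProductSpace RealInnerProductSpace
open Crest.GeometryTopology.CoordMetric Crest.Agent.N222 Crest.Agent.N222.Imm

noncomputable section

namespace Crest.Agent.N228.Cf

variable {d : ℕ} {ι ι' : Type} [Fintype ι] [Fintype ι'] {X : Type} [TopologicalSpace X]

/-- `g' = e^{2ψ} g` on the same atlas -/
structure CfRel (M : Imm d ι X) (M' : Imm d ι' X) (ψ : X → ℝ) : Prop where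
  ch : M'.ch = M.ch
  sm : M.Sm ψ
  eq : ∀ p, ∀ z ∈ (M.ch p).target, gram (M'.x ∘ (M.ch p).symm) z =
    Real.exp (2 * ψ ((M.ch p).symm z)) • gram (M.x ∘ (M.ch p).symm) z

variable [DecidableEq ι] [DecidableEq ι']

/-- the one-form `b` of `M` as a tangential field of `M'` -/
def trb (M : Imm d ι X) (M' : Imm d ι' X) (b : ι → X → ℝ) (A : ι') (p : X) : ℝ :=
  ∑ a, b a p * M'.pre.D A (M.pre.x a) p

/-- the drift `b + k dψ` as a tangential field of `M'` -/
def cfb (M : Imm d ι X) (M' : Imm d ι' X) (ψ : X → ℝ) (k : ℝ) (b : ι → X → ℝ) (A : ι') (p : X) :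
    ℝ := trb M M' b A p + k * M'.pre.D A ψ p

theorem gam_x_left (M : Imm d ι X) (a : ι) (f : X → ℝ) (p : X) :
    M.pre.gam (M.pre.x a) f p = M.pre.D a f p := by
  rw [gam_apply, ← sum_P_D f a p]
  exact Finset.sum_congr rfl fun c _ => by rw [M.P_symm a c]; rfl

theorem gam_comm (M : Imm d ι X) (f g : X → ℝ) (p : X) : M.pre.gam f g p = M.pre.gam g f p := by
  simp only [gam_apply, mul_comm]

theorem Eb_apply (M : Imm d ι X) (b : ι → X → ℝ) (p : X) :
    M.pre.Eb b p = M.pre.scal p - 2 * M.pre.dv b p - ∑ a, b a p * b a p := by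
  simp [Pre.Eb]

theorem tan_apply {M : Imm d ι X} {b : ι → X → ℝ} (hb : M.pre.Tan b) (a : ι) (p : X) :
    ∑ c, M.pre.P a c p * b c p = b a p := by
  simpa using congrFun (hb a) p

theorem tan_trb (M : Imm d ι X) (M' : Imm d ι' X) (b : ι → X → ℝ) : M'.pre.Tan (trb M M' b) := by
  intro A
  funext p
  simp only [Finset.sum_apply, Pi.mul_apply, trb, Finset.mul_sum]
  rw [Finset.sum_comm]
  refine Finset.sum_congr rfl fun a _ => ?_
  rw [← sum_P_D (M := M') (M.pre.x a) A p, Finset.mul_sum]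
  exact Finset.sum_congr rfl fun c _ => by ring

theorem tan_cfb (M : Imm d ι X) (M' : Imm d ι' X) (ψ : X → ℝ) (k : ℝ) (b : ι → X → ℝ) :
    M'.pre.Tan (cfb M M' ψ k b) := by
  intro A
  funext p
  simp only [Finset.sum_apply, Pi.mul_apply, cfb, mul_add, Finset.sum_add_distrib]
  rw [tan_apply (tan_trb M M' b), ← sum_P_D (M := M') ψ A p, Finset.mul_sum]
  congr 1
  exact Finset.sum_congr rfl fun c _ => by ring

theorem dir_trb (M : Imm d ι X) (M' : Imm d ι' X) (b : ι → X → ℝ) (f : X → ℝ) (p : X) :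
    ∑ A, trb M M' b A p * M'.pre.D A f p = ∑ a, b a p * M'.pre.gam (M.pre.x a) f p := by
  simp only [trb, gam_apply, Finset.sum_mul, Finset.mul_sum]
  rw [Finset.sum_comm]
  exact Finset.sum_congr rfl fun a _ => Finset.sum_congr rfl fun A _ => by ring

namespace CfRel

variable {M : Imm d ι X} {M' : Imm d ι' X} {ψ : X → ℝ}

omit [DecidableEq ι] [DecidableEq ι'] in
theorem sm_iff (h : CfRel M M' ψ) {F : Type} [NormedAddCommGroup F] [NormedSpace ℝ F]
    {f : X → F} : M'.Sm f ↔ M.Sm f := by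
  rw [Imm.Sm, h.ch]

omit [DecidableEq ι] [DecidableEq ι'] in
theorem isChart (h : CfRel M M' ψ) (p : X) : IsChart M'.x (M.ch p) := h.ch ▸ M'.isChart p

omit [DecidableEq ι] [DecidableEq ι'] in
theorem conf (h : CfRel M M' ψ) (p : X) : N346.Id.Conf (gram (M.x ∘ (M.ch p).symm))
    (gram (M'.x ∘ (M.ch p).symm)) (ψ ∘ (M.ch p).symm) (M.ch p).target :=
  ⟨(M.isChart p).isRiemannianOn, h.sm p, h.eq p⟩

theorem gam_eq (h : CfRel M M' ψ) (f g : X → ℝ) (p : X) :
    M'.pre.gam f g p = Real.exp (-(2 * ψ p)) * M.pre.gam f g p := by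
  rw [gam_coord (h.isChart p) (M.mem p), gam_coord (M.isChart p) (M.mem p),
    (h.conf p).gam_eq ((M.ch p).map_source (M.mem p)), comp_apply, (M.ch p).left_inv (M.mem p)]

theorem lap_eq (h : CfRel M M' ψ) {f : X → ℝ} (hf : M.Sm f) (p : X) :
    M'.pre.lap f p = Real.exp (-(2 * ψ p)) * (M.pre.lap f p + (d - 2) * M.pre.gam ψ f p) := by
  have hz := (M.ch p).map_source (M.mem p)
  have h2 : ContDiffAt ℝ 2 (f ∘ (M.ch p).symm) (M.ch p p) :=
    ((hf p).contDiffAt ((M.ch p).open_target.mem_nhds hz)).of_le two_le_inf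
  rw [lap_coord (h.isChart p) (M.mem p) h2, lap_coord (M.isChart p) (M.mem p) h2,
    gam_coord (M.isChart p) (M.mem p), (h.conf p).lap_eq hz h2, comp_apply,
    (M.ch p).left_inv (M.mem p)]

theorem scal_eq (h : CfRel M M' ψ) (p : X) : M'.pre.scal p = Real.exp (-(2 * ψ p)) *
    (M.pre.scal p - 2 * (d - 1) * M.pre.lap ψ p - (d - 1) * (d - 2) * M.pre.gam ψ ψ p) := by
  have hz := (M.ch p).map_source (M.mem p)
  have h2 : ContDiffAt ℝ 2 (ψ ∘ (M.ch p).symm) (M.ch p p) :=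
    ((h.sm p).contDiffAt ((M.ch p).open_target.mem_nhds hz)).of_le two_le_inf
  have h3 := (h.conf p).scalar_eq hz
  rw [comp_apply, (M.ch p).left_inv (M.mem p)] at h3
  rw [scal_coord (h.isChart p) (M.mem p), scal_coord (M.isChart p) (M.mem p),
    lap_coord (M.isChart p) (M.mem p) h2, gam_coord (M.isChart p) (M.mem p)]
  exact h3

theorem sm_trb (h : CfRel M M' ψ) {b : ι → X → ℝ} (hb : ∀ a, M.Sm (b a)) (A : ι') :
    M'.Sm (trb M M' b A) :=
  sm_sum _ fun a _ => (h.sm_iff.2 (hb a)).mul ((h.sm_iff.2 (M.sm_coord a)).D A)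

theorem sm_cfb (h : CfRel M M' ψ) (k : ℝ) {b : ι → X → ℝ} (hb : ∀ a, M.Sm (b a)) (A : ι') :
    M'.Sm (cfb M M' ψ k b A) :=
  (h.sm_trb hb A).add ((sm_const k).mul ((h.sm_iff.2 h.sm).D A))

theorem dir_trb_eq (h : CfRel M M' ψ) (b : ι → X → ℝ) (f : X → ℝ) (p : X) :
    M'.pre.dir (trb M M' b) f p = Real.exp (-(2 * ψ p)) * M.pre.dir b f p := by
  rw [dir_apply, dir_trb, dir_apply, Finset.mul_sum]
  refine Finset.sum_congr rfl fun a _ => ?_
  rw [h.gam_eq, gam_x_left]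
  ring


theorem sq_trb_eq (h : CfRel M M' ψ) {b : ι → X → ℝ} (hb : M.pre.Tan b) (p : X) :
    ∑ A, trb M M' b A p * trb M M' b A p = Real.exp (-(2 * ψ p)) * ∑ a, b a p * b a p := by
  have h1 : ∀ A, trb M M' b A p * trb M M' b A p =
      ∑ c, b c p * (trb M M' b A p * M'.pre.D A (M.pre.x c) p) := fun A => by
    conv_lhs => rw [trb, Finset.sum_mul]
    exact Finset.sum_congr rfl fun c _ => by rw [trb]; ring
  simp only [h1]
  rw [Finset.sum_comm, Finset.mul_sum]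
  refine Finset.sum_congr rfl fun c _ => ?_
  have h2 := h.dir_trb_eq b (M.pre.x c) p
  rw [dir_apply, dir_apply] at h2
  have h3 : ∑ a, b a p * M.pre.D a (M.pre.x c) p = b c p := by
    rw [← tan_apply hb c p]
    exact Finset.sum_congr rfl fun a _ => by rw [M.P_symm c a, mul_comm]; rfl
  rw [← Finset.mul_sum, h2, h3]
  ring

theorem dv_trb_eq (h : CfRel M M' ψ) {b : ι → X → ℝ} (hb : ∀ a, M.Sm (b a)) (hT : M.pre.Tan b)
    (p : X) : M'.pre.dv (trb M M' b) p =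
      Real.exp (-(2 * ψ p)) * (M.pre.dv b p + (d - 2) * M.pre.dir b ψ p) := by
  have hx : ∀ a, M'.Sm (M.pre.x a) := fun a => h.sm_iff.2 (M.sm_coord a)
  have h1 : ∀ A, M'.pre.D A (trb M M' b A) p = ∑ a, (b a p * M'.pre.D A (M'.pre.D A (M.pre.x a)) p
      + M'.pre.D A (b a) p * M'.pre.D A (M.pre.x a) p) := fun A => by
    have h2 := D_sum (M := M') (p := p) Finset.univ
      (f := fun a q => b a q * M'.pre.D A (M.pre.x a) q)
      (fun a _ => ((h.sm_iff.2 (hb a)).mul ((hx a).D A)).diffAt p) A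
    refine h2.trans (Finset.sum_congr rfl fun a _ => ?_)
    exact D_mul ((h.sm_iff.2 (hb a)).diffAt p) (((hx a).D A).diffAt p) A
  have h3 : ∀ a, ∑ A, (b a p * M'.pre.D A (M'.pre.D A (M.pre.x a)) p
      + M'.pre.D A (b a) p * M'.pre.D A (M.pre.x a) p) = Real.exp (-(2 * ψ p)) *
        (M.pre.H a p * b a p + (M.pre.D a (b a) p + (d - 2) * (b a p * M.pre.D a ψ p))) := by
    intro a
    rw [Finset.sum_add_distrib, ← Finset.mul_sum, ← lap_apply, ← gam_apply,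
      h.lap_eq (f := M.pre.x a) (M.sm_coord a), h.gam_eq, gam_comm M ψ, gam_comm M (b a),
      gam_x_left, gam_x_left, Pre.H]
    ring
  rw [dv_apply]
  simp only [h1]
  rw [Finset.sum_comm]
  simp only [h3]
  rw [← Finset.mul_sum, Finset.sum_add_distrib, H_tan hT, Finset.sum_add_distrib, ← Finset.mul_sum,
    dv_apply, dir_apply, zero_add]

theorem dv_cfb_eq (h : CfRel M M' ψ) (k : ℝ) {b : ι → X → ℝ} (hb : ∀ a, M.Sm (b a))
    (hT : M.pre.Tan b) (p : X) : M'.pre.dv (cfb M M' ψ k b) p = Real.exp (-(2 * ψ p)) *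
      (M.pre.dv b p + (d - 2) * M.pre.dir b ψ p
        + k * (M.pre.lap ψ p + (d - 2) * M.pre.gam ψ ψ p)) := by
  have hψ : M'.Sm ψ := h.sm_iff.2 h.sm
  have h1 : ∀ A, M'.pre.D A (cfb M M' ψ k b A) p =
      M'.pre.D A (trb M M' b A) p + k * M'.pre.D A (M'.pre.D A ψ) p := fun A => by
    rw [← D_const_mul k ((hψ.D A).diffAt p)]
    exact D_add ((h.sm_trb hb A).diffAt p) (((sm_const k).mul (hψ.D A)).diffAt p) A
  rw [mul_add, ← h.dv_trb_eq hb hT, mul_left_comm, ← h.lap_eq h.sm, dv_apply, dv_apply, lap_apply,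
    Finset.mul_sum, ← Finset.sum_add_distrib]
  exact Finset.sum_congr rfl fun A _ => h1 A

theorem sq_cfb_eq (h : CfRel M M' ψ) (k : ℝ) {b : ι → X → ℝ} (hT : M.pre.Tan b) (p : X) :
    ∑ A, cfb M M' ψ k b A p * cfb M M' ψ k b A p = Real.exp (-(2 * ψ p)) *
      (∑ a, b a p * b a p + 2 * k * M.pre.dir b ψ p + k ^ 2 * M.pre.gam ψ ψ p) := by
  have h1 := h.sq_trb_eq hT p
  have h2 := h.dir_trb_eq b ψ p
  have h3 := h.gam_eq ψ ψ p
  rw [dir_apply] at h2
  rw [gam_apply] at h3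
  have h4 : ∑ A, cfb M M' ψ k b A p * cfb M M' ψ k b A p = ∑ A, trb M M' b A p * trb M M' b A p
      + 2 * k * ∑ A, trb M M' b A p * M'.pre.D A ψ p
      + k ^ 2 * ∑ A, M'.pre.D A ψ p * M'.pre.D A ψ p := by
    rw [Finset.mul_sum, Finset.mul_sum, ← Finset.sum_add_distrib, ← Finset.sum_add_distrib]
    exact Finset.sum_congr rfl fun A _ => by rw [cfb]; ring
  rw [h4, h1, h2, h3]
  ring

/-- **the conformal law** for `g' = e^{2ψ} g`, `b' = b + k dψ` -/
theorem Eb_eq (h : CfRel M M' ψ) (k : ℝ) {b : ι → X → ℝ} (hb : ∀ a, M.Sm (b a))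
    (hT : M.pre.Tan b) (p : X) : M'.pre.Eb (cfb M M' ψ k b) p = Real.exp (-(2 * ψ p)) *
      (M.pre.Eb b p - 2 * (d - 1 + k) * M.pre.lap ψ p - 2 * (d - 2 + k) * M.pre.dir b ψ p
        - ((d - 1) * (d - 2) + 2 * k * (d - 2) + k ^ 2) * M.pre.gam ψ ψ p) := by
  rw [Eb_apply, Eb_apply, h.scal_eq, h.dv_cfb_eq k hb hT, h.sq_cfb_eq k hT]
  ring

/-- `k = -(d - 2)`: the drift drops out -/
theorem Eb_eq_two (h : CfRel M M' ψ) {b : ι → X → ℝ} (hb : ∀ a, M.Sm (b a))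
    (hT : M.pre.Tan b) (p : X) : M'.pre.Eb (cfb M M' ψ (2 - d) b) p = Real.exp (-(2 * ψ p)) *
      (M.pre.Eb b p - 2 * M.pre.lap ψ p - (d - 2) * M.pre.gam ψ ψ p) := by
  rw [h.Eb_eq _ hb hT]
  ring


end CfRel

end Crest.Agent.N228.Cf

end
end

-- ▼ part N228/Cf/Twist
section

/-!
# Row 228, conformal toolbox (helper28): the Nash twist

`exists_cf` : for a bounded smooth `v` and a smooth `f : ℝ → ℝ` the metric `e^{2 f(v)} (g + dv²)` is
EXACTLY the metric of an immersion (which contains `δ x` as a block).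
-/

set_option autoImplicit false
set_option linter.unusedSectionVars false
open Set Filter Topology Function
open scoped ContDiff InnerProductSpace RealInnerProductSpace
open Crest.Agent.N222 Crest.Agent.N222.Imm

noncomputable section

namespace Crest.Agent.N228.Cf

variable {d : ℕ} {ι : Type} [Fintype ι] {X : Type} [TopologicalSpace X]

/-- the profile functions of the twist -/
theorem exists_profile (N : ℕ) {f : ℝ → ℝ} (hf : ContDiff ℝ ∞ f) {C : ℝ}
    (h0 : ∀ t, |f t| ≤ C) (h1 : ∀ t, |deriv f t| ≤ C) :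
    ∃ (δ ε : ℝ) (α G : ℝ → ℝ), 0 < δ ∧ 0 < ε ∧ ContDiff ℝ ∞ α ∧ ContDiff ℝ ∞ G ∧
      (∀ t, δ ^ 2 + α t ^ 2 = Real.exp (2 * f t)) ∧
      ∀ t, deriv G t ^ 2 + N * ε ^ 2 * deriv α t ^ 2 = Real.exp (2 * f t) := by
  have hC : 0 ≤ C := (abs_nonneg _).trans (h0 0)
  set δ := Real.exp (-C) / 2 with hδ
  set ε := 1 / (2 * (N + 1) * (C + 1)) with hε
  have hδ2 : ∀ t, 4 * δ ^ 2 ≤ Real.exp (2 * f t) := fun t => by
    have : 4 * δ ^ 2 = Real.exp (2 * -C) := by
      rw [hδ, two_mul, Real.exp_add]; ring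
    rw [this]
    exact Real.exp_le_exp.2 (by linarith [(abs_le.1 (h0 t)).1])
  have hδ0 : 0 < δ := by positivity
  have hpos : ∀ t, 0 < Real.exp (2 * f t) - δ ^ 2 := fun t => by
    nlinarith [hδ2 t, pow_pos hδ0 2]
  have he : ContDiff ℝ ∞ fun t => Real.exp (2 * f t) := (contDiff_const.mul hf).exp
  set α : ℝ → ℝ := fun t => √(Real.exp (2 * f t) - δ ^ 2) with hα
  have hαs : ContDiff ℝ ∞ α := (he.sub contDiff_const).sqrt fun t => (hpos t).ne'
  have hα2 : ∀ t, α t ^ 2 = Real.exp (2 * f t) - δ ^ 2 := fun t => Real.sq_sqrt (hpos t).le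
  have hα0 : ∀ t, 0 < α t := fun t => Real.sqrt_pos.2 (hpos t)
  have hd : ∀ t, deriv α t * α t = Real.exp (2 * f t) * deriv f t := fun t => by
    have h2 := ((((hf.differentiable (by simp) t).hasDerivAt.const_mul 2).exp).sub_const
      (δ ^ 2)).sqrt (hpos t).ne'
    have h3 : deriv α t = _ := h2.deriv
    rw [h3]
    have := (hα0 t).ne'
    change _ / (2 * α t) * α t = _
    field_simp
  have hε2 : ∀ t, N * ε ^ 2 * deriv f t ^ 2 ≤ 1 / 4 := fun t => by
    have h2 : deriv f t ^ 2 ≤ (C + 1) ^ 2 := by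
      rw [← sq_abs]; exact pow_le_pow_left₀ (abs_nonneg _) (by linarith [h1 t]) 2
    have h3 : (N : ℝ) ≤ (N + 1) ^ 2 := by nlinarith [Nat.cast_nonneg (α := ℝ) N]
    calc (N : ℝ) * ε ^ 2 * deriv f t ^ 2 ≤ (N + 1) ^ 2 * ε ^ 2 * (C + 1) ^ 2 := by gcongr
      _ = 1 / 4 := by rw [hε]; field_simp; norm_num
  have hγ0 : ∀ t, 0 < Real.exp (2 * f t) - N * ε ^ 2 * deriv α t ^ 2 := fun t => by
    have h2 : N * ε ^ 2 * deriv α t ^ 2 * α t ^ 2 =
        Real.exp (2 * f t) ^ 2 * (N * ε ^ 2 * deriv f t ^ 2) := by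
      have : (deriv α t * α t) ^ 2 = _ := congrArg (· ^ 2) (hd t)
      linear_combination (N * ε ^ 2) * this
    have h3 := Real.exp_pos (2 * f t)
    have h4 : Real.exp (2 * f t) ^ 2 * (N * ε ^ 2 * deriv f t ^ 2) ≤
        Real.exp (2 * f t) ^ 2 * (1 / 4) := by gcongr; exact hε2 t
    refine (mul_pos_iff_of_pos_right (pow_pos (hα0 t) 2)).1 ?_
    rw [sub_mul, h2, hα2]
    nlinarith [hδ2 t]
  set γ : ℝ → ℝ := fun t => √(Real.exp (2 * f t) - N * ε ^ 2 * deriv α t ^ 2) with hγ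
  have hγs : ContDiff ℝ ∞ γ := (he.sub (contDiff_const.mul
    ((contDiff_infty_iff_deriv.1 hαs).2.pow 2))).sqrt fun t => (hγ0 t).ne'
  have hG : deriv (fun t => ∫ s in (0 : ℝ)..t, γ s) = γ :=
    funext fun t => hγs.continuous.deriv_integral γ 0 t
  refine ⟨δ, ε, α, fun t => ∫ s in (0 : ℝ)..t, γ s, hδ0, by positivity, hαs,
    contDiff_infty_iff_deriv.2 ⟨intervalIntegral.differentiable_integral_of_continuous
      hγs.continuous, hG.symm ▸ hγs⟩, fun t => by rw [hα2]; ring, fun t => ?_⟩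
  rw [hG, hγ, Real.sq_sqrt (hγ0 t).le]
  ring

/-- a smooth function agrees on a bounded set with a function bounded in `C¹` -/
theorem exists_cut {f : ℝ → ℝ} (hf : ContDiff ℝ ∞ f) (R : ℝ) : ∃ (g : ℝ → ℝ) (C : ℝ),
    ContDiff ℝ ∞ g ∧ (∀ t, |g t| ≤ C) ∧ (∀ t, |deriv g t| ≤ C) ∧ ∀ t, |t| ≤ R → g t = f t := by
  let b : ContDiffBump (0 : ℝ) := ⟨|R| + 1, |R| + 2, by positivity, by linarith⟩
  have h1 : ContDiff ℝ ∞ fun t => b t * f t := b.contDiff.mul hf
  have h2 : HasCompactSupport fun t => b t * f t := b.hasCompactSupport.mul_right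
  obtain ⟨C1, hC1⟩ := h1.continuous.bounded_above_of_compact_support h2
  obtain ⟨C2, hC2⟩ := (contDiff_infty_iff_deriv.1 h1).2.continuous.bounded_above_of_compact_support
    h2.deriv
  refine ⟨_, max C1 C2, h1, fun t => (hC1 t).trans (le_max_left _ _),
    fun t => (hC2 t).trans (le_max_right _ _), fun t ht => ?_⟩
  rw [b.one_of_mem_closedBall, one_mul]
  rw [mem_closedBall_zero_iff, Real.norm_eq_abs]
  change |t| ≤ |R| + 1
  linarith [le_abs_self R]

/-- the twist `(G, a, x) ↦ (G, δ x, ε a cos (x / ε), ε a sin (x / ε))` -/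
def tw (δ ε : ℝ) (q : ℝ × ℝ × E ι) : E (Option (ι × Fin 3)) :=
  WithLp.toLp 2 fun c => c.elim q.1 fun i =>
    ![δ * q.2.2 i.1, ε * q.2.1 * Real.cos (q.2.2 i.1 / ε), ε * q.2.1 * Real.sin (q.2.2 i.1 / ε)] i.2

/-- the derivative of the twist -/
def twD (δ ε : ℝ) (q w : ℝ × ℝ × E ι) : E (Option (ι × Fin 3)) :=
  WithLp.toLp 2 fun c => c.elim w.1 fun i =>
    ![δ * w.2.2 i.1,
      ε * w.2.1 * Real.cos (q.2.2 i.1 / ε) - q.2.1 * Real.sin (q.2.2 i.1 / ε) * w.2.2 i.1,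
      ε * w.2.1 * Real.sin (q.2.2 i.1 / ε) + q.2.1 * Real.cos (q.2.2 i.1 / ε) * w.2.2 i.1] i.2

theorem contDiff_tw (δ ε : ℝ) : ContDiff ℝ ∞ (tw (ι := ι) δ ε) := by
  refine contDiff_euclidean.2 fun c => ?_
  have hx : ∀ i : ι, ContDiff ℝ ∞ fun q : ℝ × ℝ × E ι => q.2.2 i := fun i =>
    (contDiff_euclidean.1 (contDiff_snd.comp contDiff_snd)) i
  have ha : ContDiff ℝ ∞ fun q : ℝ × ℝ × E ι => ε * q.2.1 :=
    contDiff_const.mul (contDiff_fst.comp contDiff_snd)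
  rcases c with _ | ⟨i, k⟩
  · exact contDiff_fst
  · fin_cases k
    · exact contDiff_const.mul (hx i)
    · exact ha.mul ((hx i).div_const ε).cos
    · exact ha.mul ((hx i).div_const ε).sin

theorem fderiv_tw (δ : ℝ) {ε : ℝ} (hε : ε ≠ 0) (q w : ℝ × ℝ × E ι) :
    fderiv ℝ (tw δ ε) q w = twD δ ε q w := by
  have hl : HasDerivAt (fun t : ℝ => q + t • w) w 0 := by
    simpa using ((hasDerivAt_id (0 : ℝ)).smul_const w).const_add q
  have h1 : HasDerivAt (fun t : ℝ => tw δ ε (q + t • w)) (fderiv ℝ (tw δ ε) q w) 0 := by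
    have h := ((contDiff_tw (ι := ι) δ ε).differentiable (by simp) (q + (0 : ℝ) • w)).hasFDerivAt
    have h2 := h.comp_hasDerivAt (0 : ℝ) hl
    rw [zero_smul, add_zero] at h2
    exact h2
  ext c
  have h2 : HasDerivAt (fun t : ℝ => tw δ ε (q + t • w) c) (fderiv ℝ (tw δ ε) q w c) 0 :=
    (EuclideanSpace.proj (𝕜 := ℝ) c).hasFDerivAt.comp_hasDerivAt 0 h1
  refine h2.unique ?_
  have hx : ∀ i : ι, HasDerivAt (fun t : ℝ => q.2.2 i + t * w.2.2 i) (w.2.2 i) 0 := fun i => by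
    simpa using ((hasDerivAt_id (0 : ℝ)).mul_const (w.2.2 i)).const_add (q.2.2 i)
  have ha : HasDerivAt (fun t : ℝ => ε * (q.2.1 + t * w.2.1)) (ε * w.2.1) 0 := by
    simpa using (((hasDerivAt_id (0 : ℝ)).mul_const w.2.1).const_add q.2.1).const_mul ε
  rcases c with _ | ⟨i, k⟩
  · simpa [tw, twD] using ((hasDerivAt_id (0 : ℝ)).mul_const w.1).const_add q.1
  · fin_cases k
    · exact (hx i).const_mul δ
    · refine (ha.mul ((hx i).div_const ε).cos).congr_deriv ?_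
      change _ = ε * w.2.1 * Real.cos (q.2.2 i / ε) - q.2.1 * Real.sin (q.2.2 i / ε) * w.2.2 i
      simp only [zero_mul, add_zero]
      field_simp
      ring
    · refine (ha.mul ((hx i).div_const ε).sin).congr_deriv ?_
      change _ = ε * w.2.1 * Real.sin (q.2.2 i / ε) + q.2.1 * Real.cos (q.2.2 i / ε) * w.2.2 i
      simp only [zero_mul, add_zero]
      field_simp

theorem inner_twD (δ ε : ℝ) (q w w' : ℝ × ℝ × E ι) : ⟪twD δ ε q w, twD δ ε q w'⟫ =
    w.1 * w'.1 + Fintype.card ι * ε ^ 2 * (w.2.1 * w'.2.1)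
      + (δ ^ 2 + q.2.1 ^ 2) * ⟪w.2.2, w'.2.2⟫ := by
  rw [PiLp.inner_apply, Fintype.sum_option, Fintype.sum_prod_type, PiLp.inner_apply,
    Finset.mul_sum, add_assoc]
  congr 1
  · simp [twD, mul_comm]
  have h : (Fintype.card ι : ℝ) * ε ^ 2 * (w.2.1 * w'.2.1) = ∑ _i : ι, ε ^ 2 * (w.2.1 * w'.2.1) := by
    simp [mul_assoc]
  rw [h, ← Finset.sum_add_distrib]
  refine Finset.sum_congr rfl fun i _ => ?_
  simp only [twD, Fin.sum_univ_three, Option.elim, RCLike.inner_apply, conj_trivial,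
    Matrix.cons_val_zero, Matrix.cons_val_one, Matrix.cons_val]
  linear_combination (ε ^ 2 * (w.2.1 * w'.2.1) + q.2.1 ^ 2 * (w.2.2 i * w'.2.2 i)) *
    Real.sin_sq_add_cos_sq (q.2.2 i / ε)

variable [DecidableEq ι]

theorem fderiv_graph {M : Imm d ι X} {v : X → ℝ} (hv : M.Sm v)
    {e : OpenPartialHomeomorph X (E (Fin d))} (he : IsChart M.x e) {z : E (Fin d)}
    (hz : z ∈ e.target) (w : E (Fin d)) : fderiv ℝ ((M.graph v hv).x ∘ e.symm) z w =
      up (fderiv ℝ (v ∘ e.symm) z w) (fderiv ℝ (M.x ∘ e.symm) z w) := by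
  let _ : MeasurableSpace X := ⊤
  have hp := e.map_target hz
  have h := fderiv_gx hv he hp w
  rw [← td_eq_inner, ← ContinuousLinearMap.comp_apply, ← fderiv_chart v he hp, e.right_inv hz] at h
  exact h

theorem inner_fderiv_tw {M : Imm d ι X} {v : X → ℝ} (hv : M.Sm v) (δ : ℝ) {ε : ℝ} (hε : ε ≠ 0)
    {α G : ℝ → ℝ} (hα : ContDiff ℝ ∞ α) (hG : ContDiff ℝ ∞ G)
    {e : OpenPartialHomeomorph X (E (Fin d))} (he : IsChart M.x e) {z : E (Fin d)}
    (hz : z ∈ e.target) (w w' : E (Fin d)) :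
    ⟪fderiv ℝ ((fun p => tw δ ε (G (v p), α (v p), M.x p)) ∘ e.symm) z w,
      fderiv ℝ ((fun p => tw δ ε (G (v p), α (v p), M.x p)) ∘ e.symm) z w'⟫ =
    (deriv G (v (e.symm z)) ^ 2 + Fintype.card ι * ε ^ 2 * deriv α (v (e.symm z)) ^ 2) *
        (fderiv ℝ (v ∘ e.symm) z w * fderiv ℝ (v ∘ e.symm) z w')
      + (δ ^ 2 + α (v (e.symm z)) ^ 2) *
        ⟪fderiv ℝ (M.x ∘ e.symm) z w, fderiv ℝ (M.x ∘ e.symm) z w'⟫ := by
  have hv1 := (((hv.chart he).contDiffAt (e.open_target.mem_nhds hz)).differentiableAt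
    (by simp)).hasFDerivAt
  have hx1 := ((he.cda hz).differentiableAt (by simp)).hasFDerivAt
  have hG1 := (hG.differentiable (by simp) (v (e.symm z))).hasDerivAt.comp_hasFDerivAt z hv1
  have hα1 := (hα.differentiable (by simp) (v (e.symm z))).hasDerivAt.comp_hasFDerivAt z hv1
  have h1 := (((contDiff_tw (ι := ι) δ ε).differentiable (by simp) _).hasFDerivAt.comp z
    (hG1.prodMk (hα1.prodMk hx1))).fderiv
  have h2 : ∀ u, fderiv ℝ ((fun p => tw δ ε (G (v p), α (v p), M.x p)) ∘ e.symm) z u =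
      twD δ ε (G (v (e.symm z)), α (v (e.symm z)), M.x (e.symm z))
        (deriv G (v (e.symm z)) * fderiv ℝ (v ∘ e.symm) z u,
          deriv α (v (e.symm z)) * fderiv ℝ (v ∘ e.symm) z u, fderiv ℝ (M.x ∘ e.symm) z u) := by
    intro u
    rw [← fderiv_tw δ hε]
    exact congrArg (fun T : E (Fin d) →L[ℝ] E (Option (ι × Fin 3)) => T u) h1
  rw [h2, h2, inner_twD]
  ring

/-- **exact realisation** of `e^{2 f(v)} (g + dv²)` -/
theorem exists_cf (M : Imm d ι X) {v : X → ℝ} (hv : M.Sm v) {R : ℝ} (hR : ∀ p, |v p| ≤ R)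
    {f : ℝ → ℝ} (hf : ContDiff ℝ ∞ f) : ∃ (M' : Imm d (Option (ι × Fin 3)) X) (δ : ℝ), 0 < δ ∧
      CfRel (M.graph v hv) M' (fun p => f (v p)) ∧ ∀ p a, M'.x p (some (a, 0)) = δ * M.x p a := by
  obtain ⟨g, C, hg, hg0, hg1, hgf⟩ := exists_cut hf R
  obtain ⟨δ, ε, α, G, hδ, hε, hα, hG, h1, h2⟩ := exists_profile (Fintype.card ι) hg hg0 hg1
  have key : ∀ p, ∀ z ∈ (M.ch p).target, ∀ w w',
      ⟪fderiv ℝ ((fun p => tw δ ε (G (v p), α (v p), M.x p)) ∘ (M.ch p).symm) z w,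
        fderiv ℝ ((fun p => tw δ ε (G (v p), α (v p), M.x p)) ∘ (M.ch p).symm) z w'⟫ =
      Real.exp (2 * f (v ((M.ch p).symm z))) *
        ⟪fderiv ℝ ((M.graph v hv).x ∘ (M.ch p).symm) z w,
          fderiv ℝ ((M.graph v hv).x ∘ (M.ch p).symm) z w'⟫ := fun p z hz w w' => by
    rw [inner_fderiv_tw hv δ hε.ne' hα hG (M.isChart p) hz, h1, h2, hgf _ (hR _),
      fderiv_graph hv (M.isChart p) hz, fderiv_graph hv (M.isChart p) hz, inner_up, mul_add]
  have hs : M.Sm fun p => tw δ ε (G (v p), α (v p), M.x p) :=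
    ((hv.comp hG).prodMk ((hv.comp hα).prodMk M.sm_x)).comp (contDiff_tw δ ε)
  refine ⟨⟨fun p => tw δ ε (G (v p), α (v p), M.x p), M.ch, M.mem, fun p => ⟨hs p, fun z hz => ?_⟩⟩,
    δ, hδ, ⟨rfl, hv.comp hf, fun p z hz => ?_⟩, fun p a => rfl⟩
  · refine (injective_iff_map_eq_zero _).2 fun w hw => ?_
    have h3 := key p z hz w w
    rw [hw, inner_zero_left] at h3
    have h4 := (mul_eq_zero.1 h3.symm).resolve_left (Real.exp_pos _).ne'
    exact (injective_iff_map_eq_zero _).1 (((M.graph v hv).isChart p).inj z hz) w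
      (inner_self_eq_zero.1 h4)
  · ext i j
    exact key p z hz (ee i) (ee j)

end Crest.Agent.N228.Cf

end
end

-- ▼ part N228/Cf/Step

/-!
# Row 228, conformal toolbox (helper28): graph step followed by a conformal change

`g'' = e^{2 f(v)} (g + dv²)`, `b'' = b - d log W + m dv - (d - 2) d f(v)`.
`Step M b v m f M' b'` collects the output; `exists_step` : it exists; `Step.le` : the master
inequality; `Step.gen_le` : GEN with the conformal gain; `trace_le` : the trace budget.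
-/

set_option autoImplicit false
set_option linter.unusedSectionVars false
open Set Filter Topology Function
open scoped ContDiff
open Crest.Agent.N222 Crest.Agent.N222.Imm Crest.Agent.N222.A

noncomputable section

namespace Crest.Agent.N228.Cf

variable {d : ℕ} {ι ι' : Type} [Fintype ι] [DecidableEq ι] [Fintype ι'] [DecidableEq ι']
  {X : Type} [TopologicalSpace X] {M : Imm d ι X} {b : ι → X → ℝ} {v m : X → ℝ}

theorem pre_graph (hv : M.Sm v) : (M.graph v hv).pre = stepS M.pre v := by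
  let _ : MeasurableSpace X := ⊤
  exact graph_pre hv

theorem ww_mul_vv (M : Imm d ι X) (v : X → ℝ) (p : X) : ww M.pre v p * vv M.pre v p = 1 :=
  mul_inv_cancel₀ (Real.sqrt_pos.2 (by linarith [gam_self_nonneg (M := M) v p])).ne'

theorem vv_sq_mul (M : Imm d ι X) (v : X → ℝ) (p : X) :
    vv M.pre v p ^ 2 * (1 + M.pre.gam v v p) = 1 := M.vv_sq v p

/-- the drift of the graph step -/
abbrev gb (M : Imm d ι X) (b : ι → X → ℝ) (v m : X → ℝ) : Option ι → X → ℝ :=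
  M.pre.newb v (vv M.pre v) (ww M.pre v) m b

/-- `h = div X + b(X)` -/
abbrev hh (M : Imm d ι X) (b : ι → X → ℝ) (v : X → ℝ) : X → ℝ := M.pre.hb b v (vv M.pre v)

/-- `n = m / W - h` -/
def nf (M : Imm d ι X) (b : ι → X → ℝ) (v m : X → ℝ) (p : X) : ℝ :=
  vv M.pre v p * m p - hh M b v p

/-- `X(f) = ⟨dv, df⟩ / W` -/
def xd (M : Imm d ι X) (v f : X → ℝ) (p : X) : ℝ := vv M.pre v p * M.pre.gam v f p

/-- `H = div X` -/
def hm (M : Imm d ι X) (v : X → ℝ) (p : X) : ℝ := M.pre.dv (M.pre.X v (vv M.pre v)) p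

/-- `|A|² + |d log W|²` -/
def bb (M : Imm d ι X) (v : X → ℝ) (p : X) : ℝ := M.pre.a2 v (vv M.pre v) p
  + ww M.pre v p ^ 2 * (stepS M.pre v).gam (vv M.pre v) (vv M.pre v) p

theorem sm_gb (hb : ∀ c, M.Sm (b c)) (hv : M.Sm v) (hm : M.Sm m) (c : Option ι) :
    M.Sm (gb M b v m c) :=
  (M.hom.newb ⟨v, hv⟩ ⟨_, sm_vv hv⟩ ⟨_, sm_ww hv⟩ ⟨m, hm⟩ (fun c => ⟨b c, hb c⟩) c ▸ sm_val _ :
    M.Sm (M.pre.newb (M.val ⟨v, hv⟩) (M.val ⟨_, sm_vv hv⟩) (M.val ⟨_, sm_ww hv⟩) (M.val ⟨m, hm⟩)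
      (fun c => M.val ⟨b c, hb c⟩) c))


/-- the step identity for functions -/
theorem graph_id (hb : ∀ c, M.Sm (b c)) (tb : M.pre.Tan b) (hv : M.Sm v) (hm : M.Sm m) :
    (stepS M.pre v).Tan (gb M b v m) ∧ ∀ p, (stepS M.pre v).Eb (gb M b v m) p =
      M.pre.Eb b p + bb M v p + nf M b v m p ^ 2 - m p ^ 2 - 2 * xd M v (nf M b v m) p := by
  have tR : M.preR.Tan fun c => (⟨b c, hb c⟩ : SmR M.ch) := fun c => Subtype.ext (by
    rw [← val_apply, map_sum]
    simp only [map_mul, M.hom.P]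
    exact tb c)
  obtain ⟨i1, i2, -⟩ := id_step (SmR M.ch) ι M.preR M.isDS ⟨v, hv⟩ ⟨_, sm_vv hv⟩ ⟨_, sm_ww hv⟩
    ⟨m, hm⟩ (fun c => ⟨b c, hb c⟩) (hvR hv) (Subtype.ext (funext (ww_mul_vv M v))) tR
  have gh := M.hom.graph ⟨v, hv⟩ ⟨_, sm_vv hv⟩
  refine ⟨?_, fun p => ?_⟩
  · have := gh.tan i1
    simp only [M.hom.newb] at this
    exact this
  have j2 := congrArg M.val i2
  simp only [map_add, map_sub, map_mul, map_pow, map_ofNat, gh.Eb, gh.gam,
    M.hom.Eb, M.hom.a2, M.hom.hb, M.hom.dir, M.hom.X, M.hom.newb, val_apply] at j2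
  have en : vv M.pre v * m - M.pre.hb b v (vv M.pre v) = nf M b v m := rfl
  rw [en] at j2
  have k2 := congrFun j2 p
  simp only [Pi.add_apply, Pi.sub_apply, Pi.mul_apply, Pi.pow_apply, Pi.ofNat_apply] at k2
  rw [dirX] at k2
  change (stepS M.pre v).Eb (gb M b v m) p = _ at k2
  rw [k2, bb, xd, stepS]
  ring

theorem step_gam_v (hv : M.Sm v) {f : X → ℝ} (hf : M.Sm f) (p : X) :
    (stepS M.pre v).gam v f p = vv M.pre v p * xd M v f p := by
  rw [step_gam hv hv hf, xd]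
  linear_combination (-M.pre.gam v f p) * vv_sq_mul M v p

theorem step_gam_vv (hv : M.Sm v) (p : X) : (stepS M.pre v).gam v v p = 1 - vv M.pre v p ^ 2 := by
  rw [step_gam_v hv hv, xd]
  linear_combination vv_sq_mul M v p

theorem step_lap_v (hv : M.Sm v) (p : X) :
    (stepS M.pre v).lap v p = vv M.pre v p * hm M v p := by
  have := congrArg M.val (M.isDS.id_lap_u (hvR hv) (w := ⟨_, sm_ww hv⟩)
    (Subtype.ext (funext (ww_mul_vv M v))))
  simp only [map_mul, (M.hom.graph _ _).lap, M.hom.dv, M.hom.X] at this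
  exact congrFun this p

theorem A_tau (hv : M.Sm v) (p : X) : ∑ a, ∑ c, M.pre.A v (vv M.pre v) a c p *
    ((stepS M.pre v).D a v p * (stepS M.pre v).D c v p) =
      -vv M.pre v p * xd M v (vv M.pre v) p := by
  have := congrArg M.val (M.isDS.id_A_tau (hvR hv) (w := ⟨_, sm_ww hv⟩)
    (Subtype.ext (funext (ww_mul_vv M v))))
  simp only [map_mul, map_neg, map_sum, (M.hom.graph _ _).D, M.hom.dir, M.hom.X, M.hom.A,
    val_apply] at this
  have k := congrFun this p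
  simp only [Pi.mul_apply, Pi.neg_apply, Finset.sum_apply] at k
  rw [dirX] at k
  exact k

theorem sq_expand {κ : Type} [Fintype κ] (T P : κ → κ → ℝ) (Y : κ → ℝ) (l μ : ℝ) :
    0 ≤ ∑ a, ∑ c, T a c * T a c - 2 * l * ∑ a, ∑ c, P a c * T a c
      - 2 * μ * ∑ a, ∑ c, T a c * (Y a * Y c) + l ^ 2 * ∑ a, ∑ c, P a c * P a c
      + 2 * l * μ * ∑ a, Y a * ∑ c, P a c * Y c + μ ^ 2 * (∑ a, Y a * Y a) ^ 2 := by
  have h : 0 ≤ ∑ a, ∑ c, (T a c - l * P a c - μ * (Y a * Y c)) ^ 2 :=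
    Finset.sum_nonneg fun _ _ => Finset.sum_nonneg fun _ _ => sq_nonneg _
  refine h.trans_eq ?_
  rw [sq (∑ a, Y a * Y a), Finset.sum_mul_sum]
  simp only [Finset.mul_sum, ← Finset.sum_add_distrib, ← Finset.sum_sub_distrib]
  exact Finset.sum_congr rfl fun a _ => Finset.sum_congr rfl fun c _ => by ring

/-- the trace and the gradient direction of the second fundamental form -/
theorem key_le (hv : M.Sm v) (p : X) (c f1 : ℝ) :
    -((f1 * vv M.pre v p ^ 2 + c * (1 - vv M.pre v p ^ 2)) ^ 2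
      + (d - 1) * f1 ^ 2 * vv M.pre v p ^ 2) ≤
    bb M v p - 2 * f1 * vv M.pre v p * hm M v p + 2 * c * xd M v (vv M.pre v) p := by
  let _ : MeasurableSpace X := ⊤
  set om := vv M.pre v p with hom
  set N := M.graph v hv with hN
  have e : N.pre = stepS M.pre v := pre_graph hv
  have h1 := sq_expand (fun a c => M.pre.A v (vv M.pre v) a c p) (fun a c => N.pre.P a c p)
    (fun a => N.pre.D a v p) (f1 * om) (om * (c - f1))
  have t1 : ∑ a, ∑ c, M.pre.A v (vv M.pre v) a c p * M.pre.A v (vv M.pre v) a c p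
      = M.pre.a2 v (vv M.pre v) p := by simp [Pre.a2]
  have t2 : ∑ a, ∑ c, N.pre.P a c p * M.pre.A v (vv M.pre v) a c p = hm M v p := by
    rw [Finset.sum_comm]
    refine Eq.trans (Finset.sum_congr rfl fun c _ => ?_) (tr_A hv p)
    have h := congrFun (A_tan hv c c) p
    simp only [Finset.sum_apply, Pi.mul_apply] at h
    rw [← h]
    refine Finset.sum_congr rfl fun a _ => ?_
    rw [N.P_symm a c, e]
    rfl
  have t3 : ∑ a, ∑ c, N.pre.P a c p * N.pre.P a c p = d := by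
    rw [← N.tr_P p]
    refine Finset.sum_congr rfl fun a _ => ?_
    rw [← N.PP a a p]
    exact Finset.sum_congr rfl fun c _ => by rw [N.P_symm c a]
  have t4 : ∑ a, N.pre.D a v p * N.pre.D a v p = 1 - om ^ 2 := by
    rw [← gam_apply, e, step_gam_vv hv]
  have t5 := A_tau hv p
  rw [← e] at t5
  simp only [sum_P_D] at h1
  rw [t1, t2, t3, t4, t5] at h1
  set ρ := -om * (f1 * om ^ 2 + c * (1 - om ^ 2)) with hρ
  have h2 : 0 ≤ N.pre.gam (vv M.pre v) (vv M.pre v) p - 2 * ρ * N.pre.gam v (vv M.pre v) p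
      + ρ ^ 2 * N.pre.gam v v p := by
    have h : 0 ≤ ∑ a, (N.pre.D a (vv M.pre v) p - ρ * N.pre.D a v p) ^ 2 :=
      Finset.sum_nonneg fun _ _ => sq_nonneg _
    refine h.trans_eq ?_
    simp only [gam_apply, Finset.mul_sum, ← Finset.sum_add_distrib, ← Finset.sum_sub_distrib]
    exact Finset.sum_congr rfl fun a _ => by ring
  rw [e, step_gam_vv hv, step_gam_v hv (sm_vv hv), ← hom] at h2
  have hW := ww_mul_vv M v p
  rw [← hom] at hW
  have h3 := mul_nonneg (sq_nonneg (ww M.pre v p)) h2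
  have e3 : ww M.pre v p ^ 2 * ((stepS M.pre v).gam (vv M.pre v) (vv M.pre v) p
      - 2 * ρ * (om * xd M v (vv M.pre v) p) + ρ ^ 2 * (1 - om ^ 2)) =
      ww M.pre v p ^ 2 * (stepS M.pre v).gam (vv M.pre v) (vv M.pre v) p
      + 2 * (f1 * om ^ 2 + c * (1 - om ^ 2)) * xd M v (vv M.pre v) p
      + (f1 * om ^ 2 + c * (1 - om ^ 2)) ^ 2 * (1 - om ^ 2) := by
    rw [hρ]
    linear_combination (2 * (f1 * om ^ 2 + c * (1 - om ^ 2)) * xd M v (vv M.pre v) p
      + (f1 * om ^ 2 + c * (1 - om ^ 2)) ^ 2 * (1 - om ^ 2)) * (ww M.pre v p * om + 1) * hW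
  rw [e3] at h3
  rw [bb]
  nlinarith [h1, h3]

/-- the output of one combined step -/
structure Step (M : Imm d ι X) (b : ι → X → ℝ) (v m : X → ℝ) (f : ℝ → ℝ) (M' : Imm d ι' X)
    (b' : ι' → X → ℝ) : Prop where
  ch : M'.ch = M.ch
  sm : ∀ A, M'.Sm (b' A)
  tan : M'.pre.Tan b'
  gam : ∀ g h p, M'.pre.gam g h p = Real.exp (-(2 * f (v p))) * (stepS M.pre v).gam g h p
  eb : ∀ p, M'.pre.Eb b' p = Real.exp (-(2 * f (v p))) * (M.pre.Eb b p + bb M v p
    + nf M b v m p ^ 2 - m p ^ 2 - 2 * xd M v (nf M b v m) p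
    - 2 * deriv f (v p) * vv M.pre v p * hm M v p
    - (2 * deriv (deriv f) (v p) + (d - 2) * deriv f (v p) ^ 2) * (1 - vv M.pre v p ^ 2))

/-- **the combined step exists**, for bounded `v` -/
theorem exists_step (hb : ∀ c, M.Sm (b c)) (tb : M.pre.Tan b) (hv : M.Sm v) (hm : M.Sm m) {R : ℝ}
    (hR : ∀ p, |v p| ≤ R) {f : ℝ → ℝ} (hf : ContDiff ℝ ∞ f) :
    ∃ (M' : Imm d (Option (ι × Fin 3)) X) (b' : Option (ι × Fin 3) → X → ℝ) (δ : ℝ),
      Step M b v m f M' b' ∧ 0 < δ ∧ ∀ p a, M'.x p (some (a, 0)) = δ * M.x p a := by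
  obtain ⟨M', δ, hδ, h, hx⟩ := exists_cf M hv hR hf
  obtain ⟨i1, i2⟩ := graph_id hb tb hv hm
  have e := pre_graph hv
  have hs : ∀ c, (M.graph v hv).Sm (gb M b v m c) := sm_gb hb hv hm
  refine ⟨M', cfb (M.graph v hv) M' (fun p => f (v p)) (2 - d) (gb M b v m), δ,
    ⟨h.ch, h.sm_cfb _ hs, tan_cfb _ _ _ _ _, fun g k p => by rw [h.gam_eq, e], fun p => ?_⟩, hδ, hx⟩
  have hv' : (M.graph v hv).Sm v := hv
  have g1 : (M.graph v hv).pre.gam (fun p => f (v p)) (fun p => f (v p)) p =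
      deriv f (v p) ^ 2 * (M.graph v hv).pre.gam v v p := by
    simp only [gam_apply, D_comp (hv'.diffAt p) (hf.differentiable (by simp) _).hasDerivAt,
      Finset.mul_sum]
    exact Finset.sum_congr rfl fun a _ => by ring
  rw [h.Eb_eq_two hs (e ▸ i1), lap_comp hv' (hf.contDiffAt.of_le two_le_inf), g1, e, i2,
    step_gam_vv hv, step_lap_v hv]
  ring

namespace Step

variable {f : ℝ → ℝ} {M' : Imm d ι' X} {b' : ι' → X → ℝ}

theorem sm_iff (h : Step M b v m f M' b') {F : Type} [NormedAddCommGroup F] [NormedSpace ℝ F]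
    {g : X → F} : M'.Sm g ↔ M.Sm g := by
  rw [Imm.Sm, h.ch]

theorem gam_eq (h : Step M b v m f M' b') (hv : M.Sm v) {g k : X → ℝ} (hg : M.Sm g) (hk : M.Sm k)
    (p : X) : M'.pre.gam g k p = Real.exp (-(2 * f (v p))) *
      (M.pre.gam g k p - M.pre.gam v g p * M.pre.gam v k p / (1 + M.pre.gam v v p)) := by
  have h0 : 0 < 1 + M.pre.gam v v p := by linarith [gam_self_nonneg (M := M) v p]
  have h1 : vv M.pre v p ^ 2 = 1 / (1 + M.pre.gam v v p) :=
    (eq_div_iff h0.ne').2 (vv_sq_mul M v p)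
  rw [h.gam, step_gam hv hg hk]
  congr 2
  linear_combination (M.pre.gam v g p * M.pre.gam v k p) * h1

/-- **the master inequality**: `c` is a free parameter -/
theorem le (h : Step M b v m f M' b') (hv : M.Sm v) (p : X) (c : ℝ) :
    Real.exp (-(2 * f (v p))) * (M.pre.Eb b p + nf M b v m p ^ 2 - m p ^ 2
      - 2 * xd M v (nf M b v m) p - 2 * c * xd M v (vv M.pre v) p
      - (deriv f (v p) * vv M.pre v p ^ 2 + c * (1 - vv M.pre v p ^ 2)) ^ 2
      - (d - 1) * deriv f (v p) ^ 2 * vv M.pre v p ^ 2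
      - (2 * deriv (deriv f) (v p) + (d - 2) * deriv f (v p) ^ 2) * (1 - vv M.pre v p ^ 2))
      ≤ M'.pre.Eb b' p := by
  rw [h.eb]
  refine mul_le_mul_of_nonneg_left ?_ (Real.exp_pos _).le
  linarith [key_le hv p c (deriv f (v p))]

end Step

end Crest.Agent.N228.Cf

end
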